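import Vale.Agent.P272.Stmt

/-! Statement definitions for the full answer to P272: Kaehler metrics and ample canonical bundle. -/

open scoped ContDiff

namespace Vale.Agent.P272

variable {n : ℕ} {X : Type} [TopologicalSpace X] [ChartedSpace (E n) X]

/-- The metric is Kaehler: near every point it has a smooth potential. -/
def HermMetric.IsKahler (g : HermMetric n X) : Prop :=
  ∀ x, ∃ (u : E n → ℝ) (U : Set (E n)), IsOpen U ∧ chartAt (E n) x x ∈ U ∧
    U ⊆ (chartAt (E n) x).target ∧ ContDiffOn ℝ ∞ u U ∧ ∀ y ∈ U, ∀ a, levi u y a = qf (g.Γ x y) a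

variable (n X)

/-- A holomorphic section of the `m`-th power of the canonical bundle: `s x y` is its coefficient
at the point `y` of the chart at `x`. -/
structure CanSec (m : ℕ) where
  s : X → E n → ℂ
  hol : ∀ x, DifferentiableOn ℂ (s x) (chartAt (E n) x).target
  compat : ∀ x x' p, p ∈ (chartAt (E n) x).source → p ∈ (chartAt (E n) x').source →
    s x' (chartAt (E n) x' p) = s x (chartAt (E n) x p) * (jac n X x x' p).det ^ m

/-- The canonical bundle is ample: sections `σ 0, ..., σ N` of a power have no common zero, and the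
map `p ↦ [σ 0 p : ... : σ N p]` to projective space is injective and an immersion. -/
def CanAmple : Prop :=
  ∃ (m N : ℕ) (σ : Fin (N + 1) → CanSec n X m), 1 ≤ m ∧
    (∀ p, ∃ i, (σ i).s p (chartAt (E n) p p) ≠ 0) ∧
    (∀ p q (c : ℂ), (∀ i, (σ i).s p (chartAt (E n) p p) = c * (σ i).s q (chartAt (E n) q q)) →
      p = q) ∧
    ∀ p (a : E n) (c : ℂ), (∀ i, fderiv ℂ ((σ i).s p) (chartAt (E n) p p) a =
      c * (σ i).s p (chartAt (E n) p p)) → a = 0

end Vale.Agent.P272
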