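import Vale.Agent.P272.Defs
import Vale.Agent.P272.F.Stmt

/-! P272 F (owner helper34, frozen): definitions for the block interfaces, see `notes/P272F.md`. -/

open Metric Set Filter Topology Complex
open scoped ContDiff

noncomputable section

namespace Vale.Agent.P272

variable {n : ℕ} {X : Type} [TopologicalSpace X]

/-- The trace of the Levi form against `V V^*`. -/
def trL (u : E n → ℝ) (y : E n) (V : L n) : ℝ := ∑ i, levi u y (V (eb i))

/-- The Hilbert-Schmidt norm squared. -/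
def hs (V : L n) : ℝ := ∑ i, ‖V (eb i)‖ ^ 2

/-- The Monge-Ampere side `n (e^l |det V|^2)^(1/n)`. -/
def maR (l : ℝ) (V : L n) : ℝ := n * (Real.exp l * ‖V.det‖ ^ 2) ^ (1 / n : ℝ)

namespace Atl

variable (A : Atl n X)

/-- A function on `X` read in the chart `j`. -/
def loc (φ : X → ℝ) (j : Fin A.N) : E n → ℝ := fun y => φ ((A.e j).symm y)

/-- Smooth functions on `X`. -/
def Sm (φ : X → ℝ) : Prop := ∀ j, ContDiffOn ℝ ∞ (A.loc φ j) (A.e j).target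

/-- Local potentials of a closed real (1,1)-form. -/
structure Pot where
  u : Fin A.N → E n → ℝ
  sm : ∀ j, ContDiffOn ℝ ∞ (u j) (A.e j).target
  cmp : ∀ j k x, x ∈ (A.e j).source → x ∈ (A.e k).source → ∀ a,
    levi (u k) (A.e k x) a = levi (u j) (A.e j x) (A.tr j k x a)

/-- The logarithm of a smooth volume form. -/
structure LV where
  l : Fin A.N → E n → ℝ
  sm : ∀ j, ContDiffOn ℝ ∞ (l j) (A.e j).target
  cmp : ∀ j k x, x ∈ (A.e j).source → x ∈ (A.e k).source →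
    l k (A.e k x) = l j (A.e j x) + Real.log (‖(A.tr j k x).det‖ ^ 2)

variable {A}

/-- Positive definite (a Kaehler form). -/
def Pot.Pos (ρ : A.Pot) : Prop := ∀ j, ∀ y ∈ (A.e j).target, ∀ a, a ≠ 0 → 0 < levi (ρ.u j) y a

/-- The right side of a family of linear inequalities. -/
structure Rhs (A : Atl n X) where
  F : Fin A.N → E n → ℝ → L n → ℝ
  cmp : ∀ j k x r V, x ∈ (A.e j).source → x ∈ (A.e k).source →
    F k (A.e k x) r V = F j (A.e j x) r (A.tr j k x * V)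
  mono : ∀ j y V, ‖y‖ ≤ 4 → Monotone fun r => F j y r V
  uc : ∀ R η : ℝ, 0 < η → ∃ δ : ℝ, 0 < δ ∧ ∀ j y y' r r' V, ‖y‖ ≤ 4 → ‖y'‖ ≤ 4 → |r| ≤ R →
    |r'| ≤ R → ‖y - y'‖ ≤ δ → |r - r'| ≤ δ → F j y' r' V ≤ F j y r V + η * hs V
  lo : ∀ R : ℝ, ∃ C : ℝ, ∀ j y r V, ‖y‖ ≤ 4 → |r| ≤ R → -C * hs V ≤ F j y r V

/-- Smooth strict supersolutions. -/
def Sup (u : Fin A.N → E n → ℝ) (F : Fin A.N → E n → ℝ → L n → ℝ) (φ : X → ℝ) : Prop :=
  A.Sm φ ∧ ∀ j x, x ∈ (A.e j).source →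
    ∃ V, trL (fun y => u j y + A.loc φ j y) (A.e j x) V < F j (A.e j x) (φ x) V

/-- Viscosity subsolutions. -/
def Visc (u : Fin A.N → E n → ℝ) (F : Fin A.N → E n → ℝ → L n → ℝ) (φ : X → ℝ) : Prop :=
  UpperSemicontinuous φ ∧ ∀ j x (q : E n → ℝ), x ∈ (A.e j).source → ‖A.e j x‖ < 4 →
    (∀ᶠ y in 𝓝 (A.e j x), ContDiffAt ℝ ∞ q y) →
    IsLocalMax (fun y => A.loc φ j y - q y) (A.e j x) →
    ∀ V, F j (A.e j x) (φ x) V ≤ trL (fun y => u j y + q y) (A.e j x) V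

/-- Smooth subsolutions up to the error `t`. -/
def Sub (u : Fin A.N → E n → ℝ) (F : Fin A.N → E n → ℝ → L n → ℝ) (ρ : A.Pot) (t : ℝ)
    (ψ : X → ℝ) : Prop :=
  A.Sm ψ ∧ ∀ j x V, x ∈ (A.e j).source → F j (A.e j x) (ψ x) V ≤
    trL (fun y => u j y + A.loc ψ j y) (A.e j x) V + t * trL (ρ.u j) (A.e j x) V

/-- The Monge-Ampere right side `n (e^(r + w + l) |det V|^2)^(1/n)`. -/
def maF (v : A.LV) (w : X → ℝ) (j : Fin A.N) (y : E n) (r : ℝ) (V : L n) : ℝ :=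
  maR (r + A.loc w j y + v.l j y) V

/-- The barrier data used in the twisted game. -/
structure Bar (ρ : A.Pot) (v : A.LV) (ε η B β : ℝ) (ψ b : X → ℝ) : Prop where
  smψ : A.Sm ψ
  smb : A.Sm b
  neg : ∀ x, ψ x ≤ 0
  cur : ∀ j x a, x ∈ (A.e j).source → (ε + β * ψ x) * levi (ρ.u j) (A.e j x) a ≤
    levi (fun y => v.l j y + A.loc ψ j y) (A.e j x) a ∨ η = 0
  qps : ∀ j x a, x ∈ (A.e j).source → -B * levi (ρ.u j) (A.e j x) a ≤
    levi (fun y => v.l j y + A.loc ψ j y) (A.e j x) a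
  bd : ∀ x, |b x| ≤ B
  ma : ∀ j x V, x ∈ (A.e j).source → maR (-B - η * ψ x + v.l j (A.e j x)) V ≤
    trL (fun y => 2 * ρ.u j y + A.loc b j y) (A.e j x) V

/-- A holomorphic section of the `m`-th power of the canonical bundle. -/
structure Sec (A : Atl n X) (m : ℕ) where
  s : Fin A.N → E n → ℂ
  hol : ∀ j, DifferentiableOn ℂ (s j) (A.e j).target
  cmp : ∀ j k x, x ∈ (A.e j).source → x ∈ (A.e k).source →
    s k (A.e k x) = s j (A.e j x) * (A.tr j k x).det ^ m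

/-- The canonical bundle is ample. -/
def Ample (A : Atl n X) : Prop :=
  ∃ (m N : ℕ) (σ : Fin (N + 1) → A.Sec m), 1 ≤ m ∧
    (∀ j p, p ∈ (A.e j).source → ∃ i, (σ i).s j (A.e j p) ≠ 0) ∧
    (∀ j k p q (c : ℂ), p ∈ (A.e j).source → q ∈ (A.e k).source →
      (∀ i, (σ i).s j (A.e j p) = c * (σ i).s k (A.e k q)) → p = q) ∧
    ∀ j p (a : E n) (c : ℂ), p ∈ (A.e j).source →
      (∀ i, fderiv ℂ ((σ i).s j) (A.e j p) a = c * (σ i).s j (A.e j p)) → a = 0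

end Atl

end Vale.Agent.P272
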