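import Vale.Agent.P272.F.Stmt

/-! Statement definition for P272: the Kaehler condition as `d ω = 0`. -/

namespace Vale.Agent.P272

variable {n : ℕ} {X : Type} [TopologicalSpace X] [ChartedSpace (E n) X]

/-- The coefficient `ω (a, b) = Im ⟨a, Γ b⟩` of the fundamental two-form in the chart at `x`. -/
noncomputable def HermMetric.om (g : HermMetric n X) (x : X) (a b y : E n) : ℝ :=
  (inner ℂ a (g.Γ x y b)).im

/-- The fundamental two-form is closed: `d ω (a, b, c) = 0` in every chart. -/
def HermMetric.IsClosed (g : HermMetric n X) : Prop :=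
  ∀ x, ∀ y ∈ (chartAt (E n) x).target, ∀ a b c, fderiv ℝ (g.om x b c) y a +
    fderiv ℝ (g.om x c a) y b + fderiv ℝ (g.om x a b) y c = 0

end Vale.Agent.P272
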