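import Vale.Agent.P272.F.Defs

/-! P272 F: the block interfaces (each block proves its statement under the same name in
`F/<Block>/Main.lean`; this file is only the list and is never imported by finished files). -/

open Metric Set Filter Topology Complex MeasureTheory
open scoped ContDiff

noncomputable section

namespace Vale.Agent.P272.Top

variable {n : ℕ} {X : Type} [TopologicalSpace X] [T2Space X] [CompactSpace X] {A : Atl n X}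

/-- Block Kit (h70). -/
theorem levi_comp {u : E n → ℝ} {T : E n → E n} {y : E n} (hT : ∀ᶠ z in 𝓝 y, DifferentiableAt ℂ T z)
    (hu : ContDiffAt ℝ 2 u (T y)) (a : E n) : levi (u ∘ T) y a = levi u (T y) (fderiv ℂ T y a) := by
  sorry

/-- Block Kit (h70). -/
theorem exists_cut (A : Atl n X) (j : Fin A.N) {r R : ℝ} (h0 : 0 < r) (h1 : r < R) (h2 : R ≤ 4) :
    ∃ χ : X → ℝ, A.Sm χ ∧ (∀ x, 0 ≤ χ x ∧ χ x ≤ 1) ∧ (∀ x, A.In j r x → χ x = 1) ∧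
      ∀ x, ¬ A.In j R x → χ =ᶠ[𝓝 x] 0 := by
  sorry

/-- Block P (h24). -/
theorem perron (hn : 1 ≤ n) (θ : A.Pot) (F : A.Rhs) {B m : ℝ} (h1 : ∃ φ, Atl.Sup θ.u F.F φ)
    (h2 : ∀ φ, Atl.Sup θ.u F.F φ → (∀ x, -B ≤ φ x) ∧ ∃ x, m ≤ φ x) :
    ∃ (φ : X → ℝ) (B' : ℝ), Atl.Visc θ.u F.F φ ∧ (∀ x, -B ≤ φ x ∧ φ x ≤ B') ∧ ∃ x, m ≤ φ x := by
  sorry

/-- Block R (h71). -/
theorem reg (hn : 1 ≤ n) (θ ρ : A.Pot) (hρ : ρ.Pos) (F : A.Rhs) {φ : X → ℝ} {B B' t : ℝ}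
    (h : Atl.Visc θ.u F.F φ) (hb : ∀ x, -B ≤ φ x ∧ φ x ≤ B') (ht : 0 < t) :
    ∃ ψ, Atl.Sub θ.u F.F ρ t ψ ∧ ∀ x, φ x - t ≤ ψ x := by
  sorry

/-- Block E (h1). -/
theorem env (hn : 1 ≤ n) (τ : A.Pot) (hτ : τ.Pos) {u : X → ℝ} (hu : A.Sm u) :
    ∃ (φ : X → ℝ) (C : NNReal), ∀ j, DifferentiableOn ℝ (A.loc φ j) (ball 0 1) ∧
      LipschitzOnWith C (fderiv ℝ (A.loc φ j)) (ball 0 1) ∧
      ∀ y ∈ ball (0 : E n) 1, DifferentiableAt ℝ (fderiv ℝ (A.loc φ j)) y →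
        (∀ a, 0 ≤ levi (τ.u j) y a + levi (A.loc φ j) y a) ∧
        ((∃ a, a ≠ 0 ∧ levi (τ.u j) y a + levi (A.loc φ j) y a = 0) ∨
          ∀ a, levi (A.loc φ j) y a ≤ levi (A.loc u j) y a) := by
  sorry

/-- Block M (uses `env`). -/
theorem nosuper (hn : 1 ≤ n) [Nonempty X] (θ ρ : A.Pot) (hρ : ρ.Pos) (v : A.LV) {B : ℝ}
    (h : ∀ t, 0 < t → ∃ ψ, Atl.Sub θ.u (fun j y _ V => maR (-B + v.l j y) V) ρ t ψ) :
    ∃ ε, 0 < ε ∧ ∀ u, A.Sm u → ∃ j x, x ∈ (A.e j).source ∧ ∀ a,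
      ε * levi (ρ.u j) (A.e j x) a ≤ levi (fun y => θ.u j y + A.loc u j y) (A.e j x) a := by
  sorry

/-- Block S (h4). -/
theorem skoda (hn : 1 ≤ n) [ConnectedSpace X] (τ : A.Pot) : ∃ η S : ℝ, 0 < η ∧ ∀ ψ, A.Sm ψ →
    (∀ x, ψ x ≤ 0) → (∃ x, ψ x = 0) →
    (∀ j x a, x ∈ (A.e j).source → 0 ≤ levi (fun y => τ.u j y + A.loc ψ j y) (A.e j x) a) →
    ∀ j, ∫ y in ball (0 : E n) 2, Real.exp (-η * A.loc ψ j y) ≤ S := by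
  sorry

/-- Block S (h4). -/
theorem abp (hn : 1 ≤ n) (ρ : A.Pot) (hρ : ρ.Pos) (v : A.LV) (S : ℝ) : ∃ B : ℝ, ∀ w b, A.Sm w →
    (∀ j, ∫ y in ball (0 : E n) 2, Real.exp (2 * A.loc w j y) ≤ S) →
    Atl.Sup ρ.u (Atl.maF v w) b → ∀ x, -B ≤ b x := by
  sorry

/-- Block G (h34, h22). -/
theorem vsl (hn : 1 ≤ n) (hA : A.Hyp) (ρ : A.Pot) (hρ : ρ.Pos) (v : A.LV) {ε η B : ℝ}
    (hε : 0 ≤ ε) (hη : 0 ≤ η) (h : ∀ β, 0 < β → ∃ ψ b, Atl.Bar ρ v ε η B β ψ b) :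
    ∃ B' : ℝ, ∀ φ, Atl.Sup (fun j y => v.l j y - ε * η / (2 + η) * ρ.u j y) (Atl.maF v 0) φ →
      ∀ x, -B' ≤ φ x := by
  sorry

/-- Block K (h86). -/
theorem kodaira (hn : 1 ≤ n) (v : A.LV)
    (h : ∀ j, ∀ y ∈ (A.e j).target, ∀ a, a ≠ 0 → 0 < levi (v.l j) y a) : A.Ample := by
  sorry

/-- Block A (h70): assembly from all the blocks above. -/
theorem ample (hn : 1 ≤ n) [ConnectedSpace X] (hA : A.Hyp) (ρ : A.Pot) (hρ : ρ.Pos) (v : A.LV) :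
    A.Ample := by
  sorry

end Vale.Agent.P272.Top
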